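import Crest.Agent.N334.AC.Lev
import Crest.Agent.N334.AC.Geo

/-!
# Row 334, S0520 (helper74): Combes–Thomas relative to a reference; global norm from block norms
-/

set_option autoImplicit false

open Matrix Finset

namespace Crest.Agent.N334.AC

section Abstract

variable {ι : Type*} [Fintype ι] [DecidableEq ι]

/-- conjugation by `e^φ` -/
noncomputable def tw (φ : ι → ℝ) (X : Matrix ι ι ℂ) : Matrix ι ι ℂ :=
  Matrix.of fun a b => (Real.exp (φ a - φ b) : ℂ) * X a b

omit [Fintype ι] [DecidableEq ι] in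
theorem tw_apply (φ : ι → ℝ) (X : Matrix ι ι ℂ) (a b : ι) :
    tw φ X a b = (Real.exp (φ a - φ b) : ℂ) * X a b := rfl

omit [Fintype ι] [DecidableEq ι] in
theorem norm_tw (φ : ι → ℝ) (X : Matrix ι ι ℂ) (a b : ι) :
    ‖tw φ X a b‖ = Real.exp (φ a - φ b) * ‖X a b‖ := by
  rw [tw_apply, norm_mul, Complex.norm_real, Real.norm_of_nonneg (Real.exp_nonneg _)]

omit [DecidableEq ι] in
theorem tw_mul (φ : ι → ℝ) (X Y : Matrix ι ι ℂ) : tw φ (X * Y) = tw φ X * tw φ Y := by
  ext a b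
  simp only [tw_apply, Matrix.mul_apply, Finset.mul_sum]
  refine Finset.sum_congr rfl fun c _ => ?_
  have : φ a - φ b = (φ a - φ c) + (φ c - φ b) := by ring
  rw [this, Real.exp_add]; push_cast; ring

omit [Fintype ι] [DecidableEq ι] in
theorem tw_add (φ : ι → ℝ) (X Y : Matrix ι ι ℂ) : tw φ (X + Y) = tw φ X + tw φ Y := by
  ext a b; simp [tw_apply, mul_add]

omit [Fintype ι] [DecidableEq ι] in
theorem tw_sub (φ : ι → ℝ) (X Y : Matrix ι ι ℂ) : tw φ (X - Y) = tw φ X - tw φ Y := by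
  ext a b; simp [tw_apply, mul_sub]

omit [Fintype ι] in
theorem tw_diagonal (φ : ι → ℝ) (δ : ι → ℂ) : tw φ (diagonal δ) = diagonal δ := by
  ext a b
  by_cases h : a = b
  · subst h; simp [tw_apply]
  · simp [tw_apply, h]

omit [Fintype ι] in
theorem tw_one (φ : ι → ℝ) : tw φ (1 : Matrix ι ι ℂ) = 1 := by
  rw [← diagonal_one, tw_diagonal]


/-- the resolvent identity passes to the block on the ports that carry the perturbation -/
theorem mask_resolvent {G G0 : Matrix ι ι ℂ} {δ : ι → ℂ} (h : G = G0 - G0 * diagonal δ * G)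
    (O : Finset ι) (hδ : ∀ i, i ∉ O → δ i = 0) :
    mask O O G = mask O O G0 - mask O O G0 * diagonal δ * mask O O G := by
  ext a b
  have h1 := congrFun (congrFun h a) b
  simp only [Matrix.sub_apply, Matrix.mul_apply (M := _ * diagonal δ), mul_diagonal,
    mask_apply] at h1 ⊢
  by_cases ha : a ∈ O
  · by_cases hb : b ∈ O
    · simp only [ha, hb, true_and, and_true, if_true]
      rw [h1]
      congr 1
      refine Finset.sum_congr rfl fun c _ => ?_
      by_cases hc : c ∈ O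
      · simp [hc]
      · simp [hc, hδ c hc]
    · simp [hb]
  · simp [ha]

/-- **Combes–Thomas by Neumann series**: no continuity argument. -/
theorem ct_bd {G G0 : Matrix ι ι ℂ} {δ : ι → ℂ} {φ : ι → ℝ} {s M A S : ℝ}
    (h : G = G0 - G0 * diagonal δ * G) (hs : 0 ≤ s) (hM0 : 0 ≤ M) (hA0 : 0 ≤ A) (hS0 : 0 ≤ S)
    (hδ : ∀ i, ‖δ i‖ ≤ s) (hM : Bd G M) (hA : Bd G0 A) (hS : Bd (tw φ G0 - G0) S)
    (small : 2 * (S * s * (1 + s * M)) ≤ 1) : Bd (tw φ G) (2 * (1 + s * M) * (A + S)) := by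
  have hXG : (1 + G0 * diagonal δ) * G = G0 := by
    rw [Matrix.add_mul, Matrix.one_mul]; exact eq_sub_iff_add_eq.1 h
  have hXY : (1 + G0 * diagonal δ) * (1 - G * diagonal δ) = 1 := by
    rw [Matrix.mul_sub, ← Matrix.mul_assoc, hXG]; simp
  have hYX := mul_eq_one_comm.1 hXY
  have hD := bd_diagonal hδ
  have hY : Bd (1 - G * diagonal δ) (1 + s * M) := by
    simpa [mul_comm] using bd_one.sub (hM.mul hD) zero_le_one (by positivity)
  have hG0 : Bd (tw φ G0) (A + S) := by simpa using hA.add hS hA0 hS0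
  have e : tw φ G = (1 - G * diagonal δ) * tw φ G0 -
      (1 - G * diagonal δ) * ((tw φ G0 - G0) * diagonal δ) * tw φ G := by
    have h2 : (1 + G0 * diagonal δ + (tw φ G0 - G0) * diagonal δ) * tw φ G = tw φ G0 := by
      have := congrArg (tw φ) hXG
      rw [tw_mul, tw_add, tw_mul, tw_one, tw_diagonal] at this
      convert this using 2; noncomm_ring
    conv_rhs => enter [1]; rw [← h2]
    rw [← Matrix.mul_assoc, Matrix.mul_add _ (1 + _), hYX, Matrix.add_mul, Matrix.one_mul]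
    abel
  refine bd_of_sqrt fun x => ?_
  have h1 := (hY.mul hG0).sqrt (by positivity) x
  have h2 := (hY.mul (hS.mul hD)).neg.sqrt (by positivity) (tw φ G *ᵥ x)
  have h3 := sqrt_nsq_add_le (((1 - G * diagonal δ) * tw φ G0) *ᵥ x)
    (-((1 - G * diagonal δ) * ((tw φ G0 - G0) * diagonal δ)) *ᵥ tw φ G *ᵥ x)
  rw [mulVec_mulVec, ← add_mulVec, Matrix.neg_mul, ← sub_eq_add_neg, ← e] at h3
  rw [mulVec_mulVec, Matrix.neg_mul] at h2
  have h4 := Real.sqrt_nonneg (nsq (tw φ G *ᵥ x))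
  nlinarith

omit [DecidableEq ι] in
/-- Schur test with a symmetric majorant -/
theorem bd_of_le {X : Matrix ι ι ℂ} {k : ι → ι → ℝ} {C : ℝ} (hC : 0 ≤ C)
    (hk : ∀ a b, ‖X a b‖ ≤ k a b) (hs : ∀ a b, k a b = k b a) (hsum : ∀ a, ∑ b, k a b ≤ C) :
    Bd X C := by
  have := bd_schur X hC hC (fun a => (Finset.sum_le_sum fun b _ => hk a b).trans (hsum a))
    fun b => (Finset.sum_le_sum fun a _ => (hk a b).trans (hs a b).le).trans (hsum b)
  rwa [Real.sqrt_mul_self hC] at this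


end Abstract

theorem mul_exp_le {θ t : ℝ} (h0 : 0 < θ) : t * Real.exp (-θ * t) ≤ 2 / θ * Real.exp (-(θ / 2) * t) := by
  have h1 : θ / 2 * t ≤ Real.exp (θ / 2 * t) := by linarith [Real.add_one_le_exp (θ / 2 * t)]
  have h2 : Real.exp (-(θ / 2) * t) = Real.exp (θ / 2 * t) * Real.exp (-θ * t) := by
    rw [← Real.exp_add]; congr 1; ring
  rw [h2, ← mul_assoc]
  gcongr
  rw [div_mul_eq_mul_div, le_div_iff₀ h0]; linarith

/-- a large prefactor costs only a logarithm in the rate -/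
theorem min_decay {x P Q θ t n : ℝ} (hP : 0 ≤ P) (hn : 1 ≤ n) (hQ : Q ≤ P * Real.exp n)
    (h1 : x ≤ P) (h2 : x ≤ Q * Real.exp (-θ * t)) :
    x ≤ Real.exp 1 * P * Real.exp (-(θ / n) * t) := by
  rw [mul_comm (Real.exp 1), mul_assoc, ← Real.exp_add]
  by_cases h : θ * t ≤ n
  · refine h1.trans (le_mul_of_one_le_right hP (Real.one_le_exp ?_))
    have : θ / n * t ≤ 1 := by rw [div_mul_eq_mul_div, div_le_one (by linarith)]; exact h
    linarith
  · push Not at h
    calc x ≤ P * Real.exp n * Real.exp (-θ * t) := h2.trans (by gcongr)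
      _ = P * Real.exp (n + -θ * t) := by rw [mul_assoc, ← Real.exp_add]
      _ ≤ _ := by
        refine mul_le_mul_of_nonneg_left (Real.exp_le_exp.2 ?_) hP
        have : θ / n * t = θ * t / n := by ring
        have h3 : θ * t / n ≤ θ * t - n + 1 := by
          rw [div_le_iff₀ (by linarith)]; nlinarith
        linarith

section Torus

variable {d M : ℕ} [NeZero M]

/-- exponential decay of the entries -/
def Dec (X : Matrix (Tor d M) (Tor d M) ℂ) (A θ : ℝ) : Prop :=
  ∀ a b, ‖X a b‖ ≤ A * Real.exp (-θ * tdist a b)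

theorem Dec.nonneg {X : Matrix (Tor d M) (Tor d M) ℂ} {A θ : ℝ} (h : Dec X A θ) : 0 ≤ A := by
  have := (norm_nonneg _).trans (h 0 0)
  simpa [tdist_self] using this

theorem Dec.mono {X : Matrix (Tor d M) (Tor d M) ℂ} {A θ A' θ' : ℝ} (h : Dec X A θ) (hA : A ≤ A')
    (hθ : θ' ≤ θ) : Dec X A' θ' := fun a b => (h a b).trans (by
  have := h.nonneg
  have : (0 : ℝ) ≤ tdist a b := by positivity
  gcongr
  exact this.trans' le_rfl |> fun _ => le_trans ‹0 ≤ A› hA)

theorem Dec.mask {X : Matrix (Tor d M) (Tor d M) ℂ} {A θ : ℝ} (h : Dec X A θ)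
    (R T : Finset (Tor d M)) : Dec (mask R T X) A θ := fun a b => by
  rw [mask_apply]
  split_ifs
  · exact h a b
  · have := h.nonneg; rw [norm_zero]; positivity

theorem Dec.bd {X : Matrix (Tor d M) (Tor d M) ℂ} {A θ : ℝ} (h : Dec X A θ) (h0 : 0 < θ)
    (h1 : θ ≤ 1) : Bd X (A * (3 * d / θ) ^ d) := by
  have := h.nonneg
  refine bd_of_le (by positivity) h (fun a b => by rw [tdist_comm]) fun a => ?_
  rw [← Finset.mul_sum]
  gcongr
  simpa only [tdist_comm a] using sum_exp_le h0 h1 a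

theorem Dec.tw_sub {X : Matrix (Tor d M) (Tor d M) ℂ} {A θ lam : ℝ} (h : Dec X A θ) (h0 : 0 < θ)
    (h1 : θ ≤ 1) (hl0 : 0 ≤ lam) (hl : 4 * lam ≤ θ) {φ : Tor d M → ℝ}
    (hφ : ∀ a b, |φ a - φ b| ≤ lam * tdist a b) :
    Bd (tw φ X - X) (A * (2 * lam / θ) * (12 * d / θ) ^ d) := by
  have hA := h.nonneg
  refine bd_of_le (k := fun a b => A * (2 * lam / θ) * Real.exp (-(θ / 4) * tdist a b))
    (by positivity) (fun a b => ?_) (fun a b => by rw [tdist_comm]) fun a => ?_
  · have e : (tw φ X - X) a b = ((Real.exp (φ a - φ b) - 1 : ℝ) : ℂ) * X a b := by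
      simp [tw_apply, sub_mul]
    have ht : (0 : ℝ) ≤ tdist a b := by positivity
    have h2 : |Real.exp (φ a - φ b) - 1| ≤ lam * tdist a b * Real.exp (lam * tdist a b) := by
      have h3 := abs_le.1 (hφ a b)
      have h4 := Real.add_one_le_exp (φ a - φ b)
      have h5 := Real.one_le_exp (mul_nonneg hl0 ht)
      have h6 := Real.exp_le_exp.2 h3.2
      have h7 := Real.add_one_le_exp (-(lam * tdist a b))
      have h8 : Real.exp (-(lam * tdist a b)) * Real.exp (lam * tdist a b) = 1 := by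
        rw [← Real.exp_add]; simp
      have h9 := mul_nonneg hl0 ht
      rw [abs_le]
      constructor <;> nlinarith
    rw [e, norm_mul, Complex.norm_real, Real.norm_eq_abs]
    have h3 := mul_exp_le (t := tdist a b) h0
    have h4 : Real.exp (lam * tdist a b) * Real.exp (-(θ / 2) * tdist a b) ≤
        Real.exp (-(θ / 4) * tdist a b) := by
      rw [← Real.exp_add]; gcongr; nlinarith
    calc _ ≤ lam * tdist a b * Real.exp (lam * tdist a b) * (A * Real.exp (-θ * tdist a b)) := by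
          gcongr; exact h a b
      _ = A * lam * Real.exp (lam * tdist a b) * (tdist a b * Real.exp (-θ * tdist a b)) := by ring
      _ ≤ A * lam * Real.exp (lam * tdist a b) * (2 / θ * Real.exp (-(θ / 2) * tdist a b)) := by
          gcongr
      _ = A * (2 * lam / θ) * (Real.exp (lam * tdist a b) * Real.exp (-(θ / 2) * tdist a b)) := by
          ring
      _ ≤ _ := by gcongr
  · rw [← Finset.mul_sum]
    gcongr
    have := sum_exp_le (θ := θ / 4) (by positivity) (by linarith) a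
    simp only [tdist_comm a]
    exact this.trans (le_of_eq (by congr 1; field_simp; ring))

theorem dec_of_tw {X : Matrix (Tor d M) (Tor d M) ℂ} {C lam : ℝ} (hC : 0 ≤ C) (hl0 : 0 ≤ lam)
    (h : ∀ φ : Tor d M → ℝ, (∀ a b, |φ a - φ b| ≤ lam * tdist a b) → Bd (tw φ X) C) :
    Dec X C lam := fun a b => by
  have h1 := (h (fun x => lam * tdist x b) fun x y => by
    rw [← mul_sub, abs_mul, abs_of_nonneg hl0]
    gcongr
    have h2 : (tdist x b : ℝ) ≤ tdist x y + tdist y b := by exact_mod_cast tdist_triangle x y b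
    have h3 : (tdist y b : ℝ) ≤ tdist y x + tdist x b := by exact_mod_cast tdist_triangle y x b
    rw [tdist_comm y x] at h3
    rw [abs_le]; constructor <;> linarith).entry hC a b
  rw [norm_tw, tdist_self] at h1
  have h2 : Real.exp (-lam * tdist a b) * Real.exp (lam * tdist a b - lam * (0 : ℕ)) = 1 := by
    rw [← Real.exp_add]; simp
  calc ‖X a b‖ = Real.exp (-lam * tdist a b) *
        (Real.exp (lam * tdist a b - lam * (0 : ℕ)) * ‖X a b‖) := by rw [← mul_assoc, h2, one_mul]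
    _ ≤ Real.exp (-lam * tdist a b) * C := by gcongr
    _ = _ := mul_comm _ _

/-- **CT**: decay of `G` from the decay of the reference `G0` and a global norm bound. -/
theorem ct_decay {G G0 : Matrix (Tor d M) (Tor d M) ℂ} {δ : Tor d M → ℂ} {s B A A0 θ lam S : ℝ}
    (h : G = G0 - G0 * diagonal δ * G) (hs : 0 ≤ s) (hB0 : 0 ≤ B) (hA0 : 0 ≤ A)
    (hδ : ∀ i, ‖δ i‖ ≤ s) (hB : Bd G B) (hA : Bd G0 A) (hdec : Dec G0 A0 θ) (h0 : 0 < θ)
    (h1 : θ ≤ 1) (hl0 : 0 ≤ lam) (hl : 4 * lam ≤ θ)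
    (hS : A0 * (2 * lam / θ) * (12 * d / θ) ^ d ≤ S) (small : 2 * (S * s * (1 + s * B)) ≤ 1) :
    (∀ φ : Tor d M → ℝ, (∀ a b, |φ a - φ b| ≤ lam * tdist a b) →
      Bd (tw φ G) (2 * (1 + s * B) * (A + S))) ∧ Dec G (2 * (1 + s * B) * (A + S)) lam := by
  have := hdec.nonneg
  have hS0 : 0 ≤ S := le_trans (by positivity) hS
  have key : ∀ φ : Tor d M → ℝ, (∀ a b, |φ a - φ b| ≤ lam * tdist a b) →
      Bd (tw φ G) (2 * (1 + s * B) * (A + S)) := fun φ hφ =>
    ct_bd h hs hB0 hA0 hS0 hδ hB hA ((hdec.tw_sub h0 h1 hl0 hl hφ).mono (by positivity) hS) small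
  exact ⟨key, dec_of_tw (by positivity) hl0 key⟩


end Torus

end Crest.Agent.N334.AC
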