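import Crest.Agent.N334.AC.Rel

-- ▼ part N334/AC/RelF
section

/-!
# Row 334, S0520 (helper74): the leverage scores and the change of the port energy at a release
-/

set_option autoImplicit false

open Matrix Finset
open scoped ComplexConjugate

namespace Crest.Agent.N334.AC

variable {ι : Type} [Fintype ι] [DecidableEq ι]

open Lev

namespace Lev

/-- projection on the range of the regularised block -/
noncomputable def PP (K : Matrix ι ι ℂ) (ζ : ℝ) (T : Finset ι) : Matrix (ι ⊕ ι) (ι ⊕ ι) ℂ :=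
  VV K ζ Tᶜ T * ((VV K ζ Tᶜ T)ᴴ * VV K ζ Tᶜ T)⁻¹ * (VV K ζ Tᶜ T)ᴴ

variable {K : Matrix ι ι ℂ} {ζ : ℝ} {T : Finset ι}








end Lev

/-- the `ζ`-regularised leverage score of row `a` of `K[Tᶜ,T]` -/
noncomputable def lev (K : Matrix ι ι ℂ) (ζ : ℝ) (T : Finset ι) (a : ι) : ℝ :=
  nsq (PP K ζ T (Sum.inl a))

variable {K : Matrix ι ι ℂ} {ζ : ℝ} {T : Finset ι}











/-! ## the energy -/

omit [DecidableEq ι] in
theorem En_nonneg (K : Matrix ι ι ℂ) (f : ι → ℝ) : 0 ≤ En K f := by unfold En; positivity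


omit [DecidableEq ι] in
theorem En_eq {K : Matrix ι ι ℂ} (hs : K.IsSymm) (g : ι → ℝ) :
    En K g = ∑ a, g a ^ 2 * ∑ b, ‖K a b‖ ^ 2 - ∑ a, ∑ b, ‖K a b‖ ^ 2 * (g a * g b) := by
  have h1 : ∑ a, ∑ b, ‖K a b‖ ^ 2 * g b ^ 2 = ∑ a, ∑ b, ‖K a b‖ ^ 2 * g a ^ 2 := by
    rw [Finset.sum_comm]
    exact Finset.sum_congr rfl fun a _ => Finset.sum_congr rfl fun b _ => by rw [hs.apply]
  have h2 : ∑ a, ∑ b, ‖K a b‖ ^ 2 * (g a - g b) ^ 2 = ∑ a, ∑ b, ‖K a b‖ ^ 2 * g a ^ 2 +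
      ∑ a, ∑ b, ‖K a b‖ ^ 2 * g b ^ 2 - 2 * ∑ a, ∑ b, ‖K a b‖ ^ 2 * (g a * g b) := by
    simp only [Finset.mul_sum, ← Finset.sum_add_distrib, ← Finset.sum_sub_distrib]
    exact Finset.sum_congr rfl fun a _ => Finset.sum_congr rfl fun b _ => by ring
  have h3 : ∑ a, g a ^ 2 * ∑ b, ‖K a b‖ ^ 2 = ∑ a, ∑ b, ‖K a b‖ ^ 2 * g a ^ 2 := by
    simp only [Finset.mul_sum, mul_comm]
  rw [En, h2, h1, h3]; ring







end Crest.Agent.N334.AC
end

-- ▼ part N334/AC/Cls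

/-!
# Row 334, S0520 (helper12): Ward identity, resolvent identities, simultaneous closing
-/

set_option autoImplicit false
set_option maxHeartbeats 400000
set_option linter.unusedSectionVars false

open Matrix Finset
open scoped ComplexConjugate

namespace Crest.Agent.N334.AC

variable {ι : Type} [Fintype ι] [DecidableEq ι] {A : Matrix ι ι ℂ} {w w' : ι → ℂ}

/-! ### basics -/

theorem Adm.GH (h : Adm A w) : Gm A w * Hm A w = 1 := nonsing_inv_mul _ h.inv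
theorem Adm.HG (h : Adm A w) : Hm A w * Gm A w = 1 := mul_nonsing_inv _ h.inv

theorem Adm.G_symm (h : Adm A w) : (Gm A w)ᵀ = Gm A w := by
  rw [Gm, transpose_nonsing_inv, Hm, transpose_add, h.symm.eq, diagonal_transpose]

theorem Adm.G_comm (h : Adm A w) (a b : ι) : Gm A w a b = Gm A w b a :=
  (congrFun (congrFun h.G_symm a) b).symm


theorem im_form (hA : A.IsHermitian) (w x : ι → ℂ) :
    (star x ⬝ᵥ Hm A w *ᵥ x).im = -∑ a, gam w a * ‖x a‖ ^ 2 := by
  have h1 : (star x ⬝ᵥ A *ᵥ x).im = 0 := hA.im_star_dotProduct_mulVec_self x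
  rw [Hm, add_mulVec, dotProduct_add, Complex.add_im, h1, zero_add, dotProduct, Complex.im_sum,
    ← sum_neg_distrib]
  refine sum_congr rfl fun a _ => ?_
  rw [mulVec_diagonal, Pi.star_apply, mul_left_comm, RCLike.star_def, Complex.conj_mul', gam,
    ← Complex.ofReal_pow, Complex.im_mul_ofReal, neg_mul, neg_neg]

theorem Adm.ward_col (h : Adm A w) (b : ι) :
    ∑ a, gam w a * ‖Gm A w a b‖ ^ 2 = (Gm A w b b).im := by
  simpa [← Pi.single_star] using Gm_ward h (Pi.single b 1)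

theorem Adm.im_nonneg (h : Adm A w) (b : ι) : 0 ≤ (Gm A w b b).im :=
  h.ward_col b ▸ sum_nonneg fun a _ => mul_nonneg (h.diss a) (by positivity)

theorem Adm.bd_K (h : Adm A w) : Bd (Km A w) 1 := h.wardK.bd

theorem isUnit_det_of_inj {M : Matrix ι ι ℂ} (h : ∀ x, M *ᵥ x = 0 → x = 0) : IsUnit M.det :=
  isUnit_iff_ne_zero.2 fun e => by
    obtain ⟨v, hv, h0⟩ := exists_mulVec_eq_zero_iff.2 e
    exact hv (h v h0)

/-! ### resolvent identities -/

/-- the change of the diagonal -/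
def Dm (w w' : ι → ℂ) : Matrix ι ι ℂ := diagonal fun a => w' a - w a

theorem Hm_eq (A : Matrix ι ι ℂ) (w w' : ι → ℂ) : Hm A w' = Hm A w + Dm w w' := by
  rw [Hm, Hm, Dm, add_assoc, diagonal_add]
  simp

theorem res1 (h : Adm A w) (h' : Adm A w') : Gm A w' = Gm A w - Gm A w * Dm w w' * Gm A w' := by
  have : Gm A w * Hm A w' * Gm A w' = Gm A w := by rw [mul_assoc, h'.HG, mul_one]
  rw [Hm_eq A w w', mul_add, h.GH, add_mul, one_mul] at this
  exact eq_sub_of_add_eq this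

theorem res2 (h : Adm A w) (h' : Adm A w') : Gm A w' = Gm A w - Gm A w' * Dm w w' * Gm A w := by
  have : Gm A w' * Hm A w' * Gm A w = Gm A w := by rw [h'.GH, one_mul]
  rw [Hm_eq A w w', mul_add, add_mul, mul_assoc, h.HG, mul_one] at this
  exact eq_sub_of_add_eq this

/-- the `T`-matrix of the change `w → w'` -/
noncomputable def Tm (A : Matrix ι ι ℂ) (w w' : ι → ℂ) : Matrix ι ι ℂ :=
  Dm w w' - Dm w w' * Gm A w' * Dm w w'




/-- the projection on `T` -/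
def Pm (T : Finset ι) : Matrix ι ι ℂ := diagonal fun a => if a ∈ T then 1 else 0

theorem mask_eq (R T : Finset ι) (K : Matrix ι ι ℂ) : mask R T K = Pm R * K * Pm T := by
  ext a b
  rw [mask_apply, Pm, Pm, mul_diagonal, diagonal_mul]
  by_cases ha : a ∈ R <;> by_cases hb : b ∈ T <;> simp [ha, hb]


theorem Pm_mul_Dm {T : Finset ι} (h : ∀ a, a ∉ T → w' a = w a) : Pm T * Dm w w' = Dm w w' := by
  rw [Pm, Dm, diagonal_mul_diagonal]
  congr 1
  funext a
  by_cases ha : a ∈ T <;> simp [ha, h]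

theorem Dm_mul_Pm {T : Finset ι} (h : ∀ a, a ∉ T → w' a = w a) : Dm w w' * Pm T = Dm w w' := by
  rw [Pm, Dm, diagonal_mul_diagonal]
  congr 1
  funext a
  by_cases ha : a ∈ T <;> simp [ha, h]




/-- the `T`-matrix in `K`-units -/
noncomputable def Tk (A : Matrix ι ι ℂ) (w w' : ι → ℂ) : Matrix ι ι ℂ :=
  -(diagonal (fun a => ((√(gam w a))⁻¹ : ℂ)) * Tm A w w' * diagonal fun a => ((√(gam w a))⁻¹ : ℂ))







/-! ### perturbation of a block -/

theorem Bd.of_fix {X Y E : Matrix ι ι ℂ} {Λ e : ℝ} (hY : Bd Y Λ) (hE : Bd E e) (h0 : 0 ≤ Λ)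
    (he : 0 ≤ e) (hs : Λ * e ≤ 1 / 2) (h : X = Y * (1 - E * X)) : Bd X (2 * Λ) :=
  bd_of_sqrt fun x => by
    have h1 : X *ᵥ x = Y *ᵥ x + -((Y * E) *ᵥ (X *ᵥ x)) := by
      conv_lhs => rw [h]
      rw [mul_sub, mul_one, sub_mulVec, mulVec_mulVec, mul_assoc, sub_eq_add_neg]
    have h2 := sqrt_nsq_add_le (Y *ᵥ x) (-((Y * E) *ᵥ (X *ᵥ x)))
    rw [← h1, nsq_neg] at h2
    have h3 := hY.sqrt h0 x
    have h4 := (hY.mul hE).sqrt (mul_nonneg h0 he) (X *ᵥ x)
    have h5 := mul_le_mul_of_nonneg_right hs (Real.sqrt_nonneg (nsq (X *ᵥ x)))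
    linarith

theorem Bd.eq_zero_of_fix {Y : Matrix ι ι ℂ} {c : ℝ} (hY : Bd Y c) (h0 : 0 ≤ c) (hs : c ≤ 1 / 2)
    {y : ι → ℂ} (h : y = -(Y *ᵥ y)) : y = 0 := by
  have h1 := hY y
  rw [← nsq_neg, ← h] at h1
  have h2 := nsq_nonneg y
  exact nsq_eq_zero (by nlinarith [mul_le_mul hs hs h0 (by norm_num)])

/-- a small change on `T` keeps the system invertible -/
theorem Adm.pert (h : Adm A w) {T : Finset ι} (hw : ∀ a, a ∉ T → w' a = w a) {u g : ℝ}
    (hu0 : 0 ≤ u) (hg0 : 0 ≤ g) (hu : ∀ a ∈ T, ‖w' a - w a‖ ≤ u)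
    (hg : Bd (mask T T (Gm A w)) g) (hs : g * u ≤ 1 / 2) (hd : ∀ a, 0 ≤ gam w' a) :
    Adm A w' ∧ Bd (mask T T (Gm A w')) (2 * g) := by
  have hD : Bd (Dm w w') u := bd_diagonal fun a => by
    by_cases ha : a ∈ T
    · exact hu a ha
    · simpa [hw a ha] using hu0
  have h' : Adm A w' := ⟨h.symm, h.herm, hd, isUnit_det_of_inj fun x hx => by
    have e : x = -(Gm A w * Dm w w') *ᵥ x := by
      have := congrArg (Gm A w *ᵥ ·) hx
      simp only [mulVec_mulVec, mulVec_zero] at this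
      rw [Hm_eq A w w', mul_add, h.GH, add_mulVec, one_mulVec] at this
      rw [neg_mulVec]
      exact eq_neg_of_add_eq_zero_left this
    have e2 : Pm T *ᵥ x = 0 := (hg.mul hD).eq_zero_of_fix (mul_nonneg hg0 hu0) hs (by
      conv_lhs => rw [e]
      rw [mulVec_mulVec, mulVec_mulVec, mask_eq, mul_assoc _ (Pm T), Pm_mul_Dm hw, mul_assoc,
        Dm_mul_Pm hw, mul_neg, neg_mulVec, mul_assoc])
    rw [e, ← Dm_mul_Pm hw, ← mul_assoc, neg_mulVec, ← mulVec_mulVec, e2, mulVec_zero, neg_zero]⟩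
  refine ⟨h', hg.of_fix hD hg0 hu0 hs ?_⟩
  rw [mask_eq, mask_eq, mul_sub, mul_one, ← mul_assoc, mul_assoc _ (Pm T) (Dm w w'), Pm_mul_Dm hw,
    ← mul_assoc, ← mul_assoc, mul_assoc _ (Dm w w') (Pm T), Dm_mul_Pm hw, ← sub_mul,
    mul_assoc (Pm T) (Gm A w), mul_assoc (Pm T) (_ * _), ← mul_sub, ← res1 h h']

/-- damping `T` keeps the system invertible -/
theorem Adm.damp (h : Adm A w) {T : Finset ι} (hw : ∀ a, a ∉ T → w' a = w a)
    (hT : ∀ a ∈ T, 0 < gam w' a) : Adm A w' := by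
  have hd : ∀ a, 0 ≤ gam w' a := fun a => by
    by_cases ha : a ∈ T
    · exact (hT a ha).le
    · rw [gam, hw a ha]; exact h.diss a
  refine ⟨h.symm, h.herm, hd, isUnit_det_of_inj fun x hx => ?_⟩
  have h1 := im_form h.herm w' x
  rw [hx, dotProduct_zero, Complex.zero_im, eq_comm, neg_eq_zero,
    sum_eq_zero_iff_of_nonneg fun a _ => mul_nonneg (hd a) (by positivity)] at h1
  have h2 : Dm w w' *ᵥ x = 0 := funext fun a => by
    rw [Dm, mulVec_diagonal]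
    by_cases ha : a ∈ T
    · have := (mul_eq_zero.1 (h1 a (mem_univ a))).resolve_left (hT a ha).ne'
      simp [norm_eq_zero.1 (pow_eq_zero_iff two_ne_zero |>.1 this)]
    · simp [hw a ha]
  rw [Hm_eq A w w', add_mulVec, h2, add_zero] at hx
  rw [← one_mulVec x, ← h.GH, ← mulVec_mulVec, hx, mulVec_zero]

end Crest.Agent.N334.AC
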